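import Vale.Agent.P092.H677.PCon

/-!
P092 (helper398), row [CL-II], step (2) of #9374, part 1: words of calculi, letter-free.

* `indN`: local vanishing implies vanishing, any number of functions.
* `wd c u`: the word `c 0 (u 0) * ⋯ * c (m-1) (u (m-1))`.
* `step_tot`: if all words of `m + 1` calculi with independent supports vanish, and `q` commutes
  with the last `m`, is incident with them and nowhere incident with the first one, then all words
  of the last `m` with independent supports vanish.
-/

set_option linter.all false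

namespace Vale.Agent.P092.H398.Wd

open Set Topology Filter
open Vale.Agent.P092.H232 (Nin)
open Vale.Agent.P092.H677 (sm ev_sm ev_sub ind1 nin_ev)

section ind

variable {X : Type*} [TopologicalSpace X] [CompactSpace X] [T2Space X]
  {ι A : Type*} [Fintype ι] [DecidableEq ι] [AddCommGroup A]

/-- local vanishing implies vanishing -/
theorem indN (Φ : (ι → C(X, ℂ)) → A)
    (hadd : ∀ u i v w, Φ (Function.update u i (v + w)) =
      Φ (Function.update u i v) + Φ (Function.update u i w))
    (f : ι → C(X, ℂ))
    (h : ∀ x : ι → X, (∀ i, x i ∈ tsupport ⇑(f i)) →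
      ∀ᶠ u in Filter.pi (fun i => sm {x i}), Φ u = 0) : Φ f = 0 := by
  by_cases hne : ∀ i, (tsupport ⇑(f i)).Nonempty
  swap
  · push Not at hne
    obtain ⟨i, hi⟩ := hne
    have h0 : f i = 0 := by
      ext x
      by_contra hx
      have : x ∈ tsupport ⇑(f i) := subset_tsupport _ hx
      rw [hi] at this
      exact this.elim
    have h1 := hadd f i 0 0
    rw [add_zero, ← h0, Function.update_eq_self] at h1
    exact left_eq_add.1 h1
  have key : ∀ S : Finset ι, ∀ x : ι → X, (∀ i, x i ∈ tsupport ⇑(f i)) →
      ∀ᶠ u in Filter.pi (fun i => if i ∈ S then pure (f i) else sm {x i}), Φ u = 0 := by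
    intro S
    induction S using Finset.induction_on with
    | empty =>
      intro x hx
      simpa using h x hx
    | insert j S hj ih =>
      intro x hx
      set L : Filter (ι → C(X, ℂ)) :=
        Filter.pi (fun i => if i ∈ insert j S then pure (f i) else sm {x i}) with hL
      have h1 : ∀ᶠ u in L, Φ (Function.update u j (f j)) = 0 := by
        refine ind1 L (fun u v => Φ (Function.update u j v)) (fun u v w => hadd u j v w)
          (isClosed_tsupport ⇑(f j)).isCompact ?_ subset_rfl
        intro y hy
        have h2 := ih (Function.update x j y) (by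
          intro i
          by_cases hi : i = j
          · subst hi; simpa using hy
          · rw [Function.update_of_ne hi]; exact hx i)
        have h3 : Tendsto (fun p : C(X, ℂ) × (ι → C(X, ℂ)) => Function.update p.2 j p.1)
            (sm {y} ×ˢ L) (Filter.pi (fun i => if i ∈ S then pure (f i) else
              sm {Function.update x j y i})) := by
          rw [tendsto_pi]
          intro i
          by_cases hi : i = j
          · subst hi
            simp only [hj, if_false, Function.update_self]
            exact tendsto_fst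
          · have e1 : (fun p : C(X, ℂ) × (ι → C(X, ℂ)) => Function.update p.2 j p.1 i) =
                fun p => p.2 i := by
              funext p; rw [Function.update_of_ne hi]
            rw [e1, Function.update_of_ne hi]
            have e2 : (i ∈ insert j S) ↔ i ∈ S := by
              rw [Finset.mem_insert]; exact or_iff_right hi
            have h4 : Tendsto (fun u : ι → C(X, ℂ) => u i) L
                (if i ∈ insert j S then pure (f i) else sm {x i}) := tendsto_eval_pi _ i
            simp only [e2] at h4
            exact h4.comp tendsto_snd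
        exact h3.eventually h2
      have h5 : ∀ᶠ u in L, u j = f j := by
        have h4 : Tendsto (fun u : ι → C(X, ℂ) => u j) L
            (if j ∈ insert j S then pure (f j) else sm {x j}) := tendsto_eval_pi _ j
        rw [if_pos (Finset.mem_insert_self j S)] at h4
        exact (h4.eventually (p := fun v => f j = v) (eventually_pure.2 rfl)).mono
          fun u hu => hu.symm
      filter_upwards [h1, h5] with u hu hu'
      rwa [← hu', Function.update_eq_self] at hu
  choose x hx using hne
  have h1 := key Finset.univ x hx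
  simp only [Finset.mem_univ, if_true] at h1
  have h2 : pure f ≤ Filter.pi (fun i => (pure (f i) : Filter C(X, ℂ))) :=
    Filter.le_pi.2 fun i => tendsto_pure_pure _ _
  exact eventually_pure.1 (h2 h1)

end ind

section words

variable {X K : Type*} [TopologicalSpace X] [CompactSpace X] [T2Space X]
  [NormedAddCommGroup K] [InnerProductSpace ℂ K] [CompleteSpace K] {m : ℕ}

/-- the word `c 0 (u 0) * ⋯ * c (m-1) (u (m-1))` -/
noncomputable def wd (c : Fin m → (C(X, ℂ) →⋆ₐ[ℂ] (K →L[ℂ] K))) (u : Fin m → C(X, ℂ)) :
    K →L[ℂ] K := (List.ofFn fun i => c i (u i)).prod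

theorem wd_zero (c : Fin 0 → (C(X, ℂ) →⋆ₐ[ℂ] (K →L[ℂ] K))) (u) : wd c u = 1 := by
  simp [wd]

theorem wd_succ (c : Fin (m + 1) → (C(X, ℂ) →⋆ₐ[ℂ] (K →L[ℂ] K))) (u) :
    wd c u = c 0 (u 0) * wd (fun i => c i.succ) fun i => u i.succ := by
  simp [wd, List.ofFn_succ]

theorem wd_update_add (c : Fin m → (C(X, ℂ) →⋆ₐ[ℂ] (K →L[ℂ] K))) (u i v w) :
    wd c (Function.update u i (v + w)) = wd c (Function.update u i v) +
      wd c (Function.update u i w) := by
  have key : ∀ v, (fun j => c j (Function.update u i v j)) =
      Function.update (fun j => c j (u j)) i (c i v) := by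
    intro v
    funext j
    by_cases hj : j = i
    · subst hj; simp
    · rw [Function.update_of_ne hj, Function.update_of_ne hj]
  have h := (MultilinearMap.mkPiAlgebraFin ℂ m (K →L[ℂ] K)).map_update_add
    (fun j => c j (u j)) i (c i v) (c i w)
  simp only [MultilinearMap.mkPiAlgebraFin_apply] at h
  unfold wd
  rw [key, key, key, map_add, h]

/-- an operator which commutes with the letters commutes with the word -/
theorem comm_wd {c : Fin m → (C(X, ℂ) →⋆ₐ[ℂ] (K →L[ℂ] K))} {u : Fin m → C(X, ℂ)} {T : K →L[ℂ] K}
    (h : ∀ i, Commute T (c i (u i))) : Commute T (wd c u) := by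
  refine Commute.list_prod_right _ _ ?_
  intro x hx
  obtain ⟨i, rfl⟩ := (List.mem_ofFn' _ _).1 hx
  exact h i

/-- if `T` commutes with the letters and kills one, it kills the word -/
theorem kill_wd : ∀ {m : ℕ} {c : Fin m → (C(X, ℂ) →⋆ₐ[ℂ] (K →L[ℂ] K))} {u : Fin m → C(X, ℂ)}
    {T : K →L[ℂ] K}, (∀ i, Commute T (c i (u i))) → ∀ i, T * c i (u i) = 0 → T * wd c u = 0
  | 0, _, _, _, _, i, _ => i.elim0
  | m + 1, c, u, T, h, i, hi => by
    rw [wd_succ]
    refine Fin.cases (motive := fun i => T * c i (u i) = 0 → _) (fun h0 => ?_)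
      (fun j hj => ?_) i hi
    · rw [← mul_assoc, h0, zero_mul]
    · rw [← mul_assoc, (h 0).eq, mul_assoc,
        kill_wd (c := fun i => c i.succ) (u := fun i => u i.succ) (fun i => h i.succ) j hj,
        mul_zero]

/-- **one step** -/
theorem step_tot {c : Fin (m + 1) → (C(X, ℂ) →⋆ₐ[ℂ] (K →L[ℂ] K))}
    {q : C(X, ℂ) →⋆ₐ[ℂ] (K →L[ℂ] K)} {Pr : X → X → Prop} (hP : IsClosed {p : X × X | Pr p.1 p.2})
    {Ind : (Fin m → X) → Prop} {Ind' : (Fin (m + 1) → X) → Prop}
    (ho : IsOpen {x | Ind' x})
    (geo : ∀ (x : Fin (m + 1) → X) (y : X), Ind (fun i => x i.succ) →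
      (∀ i : Fin m, Pr y (x i.succ)) → ¬ Pr (x 0) y → Ind' x)
    (cq : ∀ (i : Fin m) f g, Commute (q f) (c i.succ g))
    (iq : ∀ (i : Fin m) f g, Nin Pr f g → q f * c i.succ g = 0)
    (np : ∀ ζ, (∀ f g, Nin Pr f g → c 0 f (q g ζ) = 0) → ζ = 0)
    (hall : ∀ u : Fin (m + 1) → C(X, ℂ), (∀ x : Fin (m + 1) → X, (∀ i, x i ∈ tsupport ⇑(u i)) →
      Ind' x) → wd c u = 0)
    (u : Fin m → C(X, ℂ)) (hu : ∀ x : Fin m → X, (∀ i, x i ∈ tsupport ⇑(u i)) → Ind x) :
    wd (fun i => c i.succ) u = 0 := by
  ext ζ
  refine np _ fun f g hfg => ?_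
  have main : c 0 f * q g * wd (fun i => c i.succ) u = 0 := by
    let C : Fin (m + 2) → (C(X, ℂ) →⋆ₐ[ℂ] (K →L[ℂ] K)) :=
      Fin.cons (c 0) (Fin.cons q fun i => c i.succ)
    let U : Fin (m + 2) → C(X, ℂ) := Fin.cons f (Fin.cons g u)
    have hC : ∀ v : Fin (m + 2) → C(X, ℂ), wd C v =
        c 0 (v 0) * (q (v 1) * wd (fun i => c i.succ) fun i => v i.succ.succ) := by
      intro v
      rw [wd_succ, wd_succ]
      rfl
    have h0 : wd C U = 0 := by
      refine indN (wd C) (fun u i v w => wd_update_add C u i v w) U fun x hx => ?_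
      have ev : ∀ j : Fin (m + 2), Tendsto (fun v : Fin (m + 2) → C(X, ℂ) => v j)
          (Filter.pi fun i => sm {x i}) (sm {x j}) := fun j => tendsto_eval_pi _ j
      have hi : Ind fun i => x i.succ.succ := hu _ fun i => hx i.succ.succ
      have h01 : ¬ Pr (x 0) (x 1) := hfg _ (hx 0) _ (hx 1)
      by_cases hp : ∀ i : Fin m, Pr (x 1) (x i.succ.succ)
      · have hI : Ind' (Fin.cons (x 0) fun i => x i.succ.succ) := geo _ (x 1) hi hp h01
        obtain ⟨O, hO, hOI⟩ := isOpen_pi_iff'.1 ho _ hI
        have e0 : ∀ᶠ v : Fin (m + 2) → C(X, ℂ) in Filter.pi (fun i => sm {x i}),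
            tsupport ⇑(v 0) ⊆ O 0 :=
          (ev 0).eventually (ev_sub (hO 0).1 (by simpa using (hO 0).2))
        have e1 : ∀ᶠ v : Fin (m + 2) → C(X, ℂ) in Filter.pi (fun i => sm {x i}), ∀ i : Fin m,
            tsupport ⇑(v i.succ.succ) ⊆ O i.succ :=
          eventually_all.2 fun i => (ev i.succ.succ).eventually
            (ev_sub (hO i.succ).1 (by simpa using (hO i.succ).2))
        filter_upwards [e0, e1] with v h0 h1
        have h2 : wd c (Fin.cons (v 0) fun i => v i.succ.succ) = 0 := by
          refine hall _ fun y hy => hOI ?_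
          intro i _
          refine Fin.cases ?_ (fun j => ?_) i
          · exact h0 (hy 0)
          · exact h1 j (hy j.succ)
        rw [wd_succ] at h2
        simp only [Fin.cons_zero, Fin.cons_succ] at h2
        rw [hC, (comm_wd fun i => cq i _ _).eq, ← mul_assoc, h2, zero_mul]
      · push Not at hp
        obtain ⟨i, hi⟩ := hp
        filter_upwards [((ev 1).prodMk (ev i.succ.succ)).eventually (nin_ev hP hi)] with v hv
        rw [hC, kill_wd (fun i => cq i _ _) i (iq i _ _ hv), mul_zero]
    rw [hC] at h0
    rw [mul_assoc]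
    exact h0
  exact congrArg (fun S : K →L[ℂ] K => S ζ) main

end words

end Vale.Agent.P092.H398.Wd
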