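import Vale.Agent.P092.H796.Res2
import Vale.Agent.P092.H398.Wd1

/-!
P092 (helper398), row [CL-II], step (2) of #9374, part 2: words of the points of `{a, a'}^⊥`.

* `Ind x`: the points `x 0, …, x (m-1)` are independent; `isOpen_ind`.
* `exists_q`: independent points of `{a, a'}^⊥`, `a`, `a'` opposite: a point orthogonal to the last
  `m` and not to the first.
* `exists_tuple`: `{a, a'}^⊥` contains `N - 2` independent points (Witt index `≥ 2`).
* `span_two`: points orthogonal to `N - 2` independent ones.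
* `tuple_tot`: words with independent supports are total.
* `zo_words`: the zero-one law for words.
-/

set_option linter.all false

open TopologicalSpace Topology Module Set Filter
open scoped Matrix

namespace Vale.Agent.P092.H398.Wd

open Vale.Agent.P092.H303 (FormGroup)
open Vale.Agent.P092.H370.Po
open Vale.Agent.P092.H714.Cl
open Vale.Agent.P092.H100.Gr (Gr)
open Vale.Agent.P092.H232 (Nin)
open Vale.Agent.P092.RC (Cm Moore)

section alg

variable {n : Type} [Fintype n] [DecidableEq n] {k : Type} [Field k]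
  {σ : k →+* k} {ε : k} {J : Matrix n n k} {m : ℕ}

/-- independence of `m` points -/
def Ind (x : Fin m → SGr σ J 1) : Prop := m ≤ finrank k ↥(⨆ i, (x i).S)

/-- a generator of a point -/
theorem exists_vec (x : SGr σ J 1) : ∃ v, v ≠ 0 ∧ x.S = Submodule.span k {v} := by
  obtain ⟨v, hv, hv'⟩ := finrank_eq_one_iff'.1 x.dim
  refine ⟨v.1, fun h => hv (Subtype.ext h), le_antisymm ?_ ?_⟩
  · intro w hw
    obtain ⟨c, hc⟩ := hv' ⟨w, hw⟩
    rw [Submodule.mem_span_singleton]
    exact ⟨c, congrArg Subtype.val hc⟩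
  · rw [Submodule.span_singleton_le_iff_mem]
    exact v.2

/-- the point of an isotropic vector -/
def pt (v : n → k) (h0 : v ≠ 0) (h : hf σ J v v = 0) : SGr σ J 1 :=
  SGr.mk' (Submodule.span k {v}) (by
    intro x hx y hy
    obtain ⟨a, rfl⟩ := Submodule.mem_span_singleton.1 hx
    obtain ⟨b, rfl⟩ := Submodule.mem_span_singleton.1 hy
    rw [hf_smul_left, hf_smul_right, h, mul_zero, mul_zero]) (finrank_span_singleton h0)

theorem pt_S (v : n → k) (h0 : v ≠ 0) (h : hf σ J v v = 0) :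
    (pt v h0 h).S = Submodule.span k {v} := rfl

theorem iSup_le_succ (x : Fin (m + 1) → SGr σ J 1) :
    (⨆ i, (x i).S) ≤ (⨆ i : Fin m, (x i.succ).S) ⊔ (x 0).S := by
  refine iSup_le fun i => ?_
  refine Fin.cases ?_ (fun j => ?_) i
  · exact le_sup_right
  · exact le_sup_of_le_left (le_iSup (fun j : Fin m => (x j.succ).S) j)

theorem finrank_iSup_le : ∀ {m : ℕ} (x : Fin m → SGr σ J 1), finrank k ↥(⨆ i, (x i).S) ≤ m
  | 0, x => by
    have : (⨆ i, (x i).S) = ⊥ := by simp
    rw [this, finrank_bot]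
  | m + 1, x => by
    have h1 := Submodule.finrank_mono (iSup_le_succ x)
    have h2 := Submodule.finrank_add_le_finrank_add_finrank (⨆ i : Fin m, (x i.succ).S) (x 0).S
    have h3 : finrank k ↥(⨆ i : Fin m, (x i.succ).S) ≤ m :=
      finrank_iSup_le fun i : Fin m => x i.succ
    have h4 := (x 0).dim
    omega

theorem ind_tail {x : Fin (m + 1) → SGr σ J 1} (h : Ind x) : Ind fun i : Fin m => x i.succ := by
  have h1 := Submodule.finrank_mono (iSup_le_succ x)
  have h2 := Submodule.finrank_add_le_finrank_add_finrank (⨆ i : Fin m, (x i.succ).S) (x 0).S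
  have h4 := (x 0).dim
  change m ≤ finrank k ↥(⨆ i : Fin m, (x i.succ).S)
  unfold Ind at h
  omega

theorem ind_head {x : Fin (m + 1) → SGr σ J 1} (h : Ind x) :
    ¬ (x 0).S ≤ ⨆ i : Fin m, (x i.succ).S := by
  intro hle
  have h1 := Submodule.finrank_mono ((iSup_le_succ x).trans (sup_le le_rfl hle))
  have h3 : finrank k ↥(⨆ i : Fin m, (x i.succ).S) ≤ m :=
    finrank_iSup_le fun i : Fin m => x i.succ
  unfold Ind at h
  omega

theorem ind_cons {x : Fin (m + 1) → SGr σ J 1} (h : Ind fun i : Fin m => x i.succ)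
    (h0 : ¬ (x 0).S ≤ ⨆ i : Fin m, (x i.succ).S) : Ind x := by
  obtain ⟨v, hv0, hv⟩ := exists_vec (x 0)
  have hvn : v ∉ ⨆ i : Fin m, (x i.succ).S := fun hv' => h0 (by
    rw [hv]; exact (Submodule.span_singleton_le_iff_mem _ _).2 hv')
  have h1 := finrank_sup_span hvn
  have h2 : (⨆ i : Fin m, (x i.succ).S) ⊔ Submodule.span k {v} ≤ ⨆ i, (x i).S := by
    refine sup_le (iSup_le fun i => le_iSup (fun j => (x j).S) i.succ) ?_
    rw [← hv]
    exact le_iSup (fun j => (x j).S) 0
  have h3 := Submodule.finrank_mono h2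
  have h' : m ≤ finrank k ↥(⨆ i : Fin m, (x i.succ).S) := h
  unfold Ind
  omega

theorem col_symm (hF : Frm σ ε J) {i j : ℕ} {x : SGr σ J i} {y : SGr σ J j} (h : Col x y) :
    Col y x := Ort.symm hF h

/-- the geometric input of `step_tot` -/
theorem ind_geo (hF : Frm σ ε J) {x : Fin (m + 1) → SGr σ J 1} {y : SGr σ J 1}
    (h : Ind fun i : Fin m => x i.succ) (hp : ∀ i : Fin m, Col y (x i.succ))
    (h0 : ¬ Col (x 0) y) : Ind x := by
  refine ind_cons h fun hle => h0 ?_
  refine col_symm hF (ort_iff_le_perp.2 (hle.trans (iSup_le fun i => ?_)))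
  exact ort_iff_le_perp.1 (hp i)

/-- **the auxiliary point** -/
theorem exists_q (hF : Frm σ ε J) {a a' : SGr σ J 1} (haa : ¬ Col a a')
    {p : Fin (m + 1) → SGr σ J 1} (hp : Ind p) (ha : ∀ i, Col (p i) a) (ha' : ∀ i, Col (p i) a') :
    ∃ q : SGr σ J 1, (∀ i : Fin m, Col q (p i.succ)) ∧ ¬ Col (p 0) q := by
  obtain ⟨v, hv0, hv⟩ := exists_vec (p 0)
  obtain ⟨w, hw0, hw⟩ := exists_vec a
  obtain ⟨w', hw0', hw'⟩ := exists_vec a'
  have hww : hf σ J w w' ≠ 0 := by
    intro h
    apply haa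
    intro x hx y hy
    rw [hw] at hx
    rw [hw'] at hy
    obtain ⟨s, rfl⟩ := Submodule.mem_span_singleton.1 hx
    obtain ⟨t, rfl⟩ := Submodule.mem_span_singleton.1 hy
    rw [hf_smul_left, hf_smul_right, h, mul_zero, mul_zero]
  set T : Submodule k (n → k) := ⨆ i : Fin m, (p i.succ).S with hT
  have hvT : v ∉ T := fun h => ind_head hp (by
    rw [hv]; exact (Submodule.span_singleton_le_iff_mem _ _).2 h)
  have hTa : Ort σ J T a.S := by
    refine Ort.symm hF (ort_iff_le_perp.2 (iSup_le fun i => ?_))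
    exact ort_iff_le_perp.1 (Ort.symm hF (ha i.succ))
  have hTa' : Ort σ J T a'.S := by
    refine Ort.symm hF (ort_iff_le_perp.2 (iSup_le fun i => ?_))
    exact ort_iff_le_perp.1 (Ort.symm hF (ha' i.succ))
  have wa : w ∈ a.S := by rw [hw]; exact Submodule.mem_span_singleton_self w
  have wa' : w' ∈ a'.S := by rw [hw']; exact Submodule.mem_span_singleton_self w'
  have vp : v ∈ (p 0).S := by rw [hv]; exact Submodule.mem_span_singleton_self v
  have hvw : hf σ J v w = 0 := ha 0 v vp w wa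
  have hvw' : hf σ J v w' = 0 := ha' 0 v vp w' wa'
  have hwwz : hf σ J w w = 0 := a.sing.zero wa
  -- the two independence statements
  have n1 : v ∉ T ⊔ Submodule.span k {w} := by
    intro h
    obtain ⟨t, ht, z, hz, he⟩ := Submodule.mem_sup.1 h
    obtain ⟨c, rfl⟩ := Submodule.mem_span_singleton.1 hz
    have h1 : hf σ J (t + c • w) w' = 0 := by rw [he]; exact hvw'
    rw [hf_add_left, hf_smul_left, hTa' t ht w' wa', zero_add] at h1
    have hc : c = 0 := (mul_eq_zero.1 h1).resolve_right hww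
    rw [hc, zero_smul, add_zero] at he
    exact hvT (he ▸ ht)
  have n2 : w ∉ T ⊔ Submodule.span k {v} := by
    intro h
    obtain ⟨t, ht, z, hz, he⟩ := Submodule.mem_sup.1 h
    obtain ⟨c, rfl⟩ := Submodule.mem_span_singleton.1 hz
    apply hww
    rw [← he, hf_add_left, hf_smul_left, hTa' t ht w' wa', hvw', mul_zero, add_zero]
  set U : Submodule k (n → k) := T ⊔ Submodule.span k {v} ⊔ Submodule.span k {w} with hU
  have hvU : v ∈ U := by
    rw [hU]
    exact (le_sup_right.trans le_sup_left : Submodule.span k {v} ≤ _)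
      (Submodule.mem_span_singleton_self v)
  have hwU : w ∈ U := by
    rw [hU]
    exact (le_sup_right : Submodule.span k {w} ≤ _) (Submodule.mem_span_singleton_self w)
  have hTU : T ≤ U := le_sup_left.trans le_sup_left
  obtain ⟨φ₁, f1, f2⟩ := exists_functional (X := U) (H := T ⊔ Submodule.span k {w})
    (sup_le hTU le_sup_right) hvU n1
  obtain ⟨φ₂, f3, f4⟩ := exists_functional (X := U) (H := T ⊔ Submodule.span k {v})
    le_sup_left hwU n2
  obtain ⟨y, hy⟩ := exists_prod hF U (φ₁ + φ₂)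
  have y1 : hf σ J v y = 1 := by
    have h := hy ⟨v, hvU⟩
    rw [LinearMap.add_apply, f1, f4 ⟨v, hvU⟩
      ((le_sup_right : Submodule.span k {v} ≤ _) (Submodule.mem_span_singleton_self v)),
      add_zero] at h
    exact h
  have y2 : hf σ J w y = 1 := by
    have h := hy ⟨w, hwU⟩
    rw [LinearMap.add_apply, f3, f2 ⟨w, hwU⟩
      ((le_sup_right : Submodule.span k {w} ≤ _) (Submodule.mem_span_singleton_self w)),
      zero_add] at h
    exact h
  have y3 : ∀ t ∈ T, hf σ J t y = 0 := by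
    intro t ht
    have h := hy ⟨t, hTU ht⟩
    rw [LinearMap.add_apply, f2 ⟨t, hTU ht⟩ ((le_sup_left : T ≤ _) ht),
      f4 ⟨t, hTU ht⟩ ((le_sup_left : T ≤ _) ht), zero_add] at h
    exact h
  obtain ⟨α, hα⟩ := hF.exists_corr hwwz (y := y) (by rw [y2]; exact one_ne_zero)
  have q1 : hf σ J v (y + α • w) = 1 := by
    rw [hf_add_right, hf_smul_right, hvw, mul_zero, add_zero, y1]
  have q3 : ∀ t ∈ T, hf σ J t (y + α • w) = 0 := by
    intro t ht
    rw [hf_add_right, hf_smul_right, hTa t ht w wa, mul_zero, add_zero, y3 t ht]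
  have q0 : y + α • w ≠ 0 := by
    intro h
    rw [h, hf_zero_right] at q1
    exact zero_ne_one q1
  refine ⟨pt _ q0 hα, fun i => ?_, fun h => ?_⟩
  · refine Ort.symm hF (ort_span_right.2 fun x hx => q3 x ?_)
    exact (le_iSup (fun j : Fin m => (p j.succ).S) i) hx
  · have h1 := h v vp (y + α • w) (Submodule.mem_span_singleton_self _)
    rw [q1] at h1
    exact one_ne_zero h1

/-- the isotropic vectors of `{a, a'}^⊥` span it -/
theorem exists_tuple (hF : Frm σ ε J) {r : ℕ} (hr : 2 ≤ r) (hW : WI σ J r) {a a' : SGr σ J 1}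
    (haa : ¬ Col a a') : ∃ p : Fin (Fintype.card n - 2) → SGr σ J 1, Ind p ∧
      (∀ i, Col (p i) a) ∧ ∀ i, Col (p i) a' := by
  classical
  set H : Submodule k (n → k) := perp σ J (a.S ⊔ a'.S) with hH
  -- dimension
  have hd : Fintype.card n - 2 ≤ finrank k H := by
    have h1 := H631.P2.finrank_perp hF (a.S ⊔ a'.S)
    rw [finrank_fintype_fun_eq_card, ← hH] at h1
    have h2 := Submodule.finrank_add_le_finrank_add_finrank a.S a'.S
    have h3 := a.dim
    have h4 := a'.dim
    omega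
  -- an isotropic vector of `H`
  obtain ⟨w, hw0, hw⟩ := exists_vec a
  obtain ⟨w', hw0', hw'⟩ := exists_vec a'
  have wa : w ∈ a.S := by rw [hw]; exact Submodule.mem_span_singleton_self w
  have wa' : w' ∈ a'.S := by rw [hw']; exact Submodule.mem_span_singleton_self w'
  have hww : hf σ J w w' ≠ 0 := by
    intro h
    apply haa
    intro x hx y hy
    rw [hw] at hx
    rw [hw'] at hy
    obtain ⟨s, rfl⟩ := Submodule.mem_span_singleton.1 hx
    obtain ⟨t, rfl⟩ := Submodule.mem_span_singleton.1 hy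
    rw [hf_smul_left, hf_smul_right, h, mul_zero, mul_zero]
  have hHm : ∀ {v : n → k}, v ∈ H ↔ hf σ J v w = 0 ∧ hf σ J v w' = 0 := by
    intro v
    rw [hH, H631.P2.perp_symm hF]
    constructor
    · intro h
      exact ⟨h w ((le_sup_left : a.S ≤ _) wa), h w' ((le_sup_right : a'.S ≤ _) wa')⟩
    · rintro ⟨h1, h2⟩ x hx
      obtain ⟨s, hs, t, ht, rfl⟩ := Submodule.mem_sup.1 hx
      rw [hw] at hs
      rw [hw'] at ht
      obtain ⟨c, rfl⟩ := Submodule.mem_span_singleton.1 hs
      obtain ⟨d, rfl⟩ := Submodule.mem_span_singleton.1 ht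
      rw [hf_add_right, hf_smul_right, hf_smul_right, h1, h2, mul_zero, mul_zero, add_zero]
  obtain ⟨e, he0, hee, heH⟩ : ∃ e, e ≠ 0 ∧ hf σ J e e = 0 ∧ e ∈ H := by
    obtain ⟨⟨Y, hY, hYd⟩, -⟩ := hW
    obtain ⟨Z, z1, z2, z3⟩ := exists_above hF a.sing hY (j := 2) (by rw [a.dim]; omega)
      (by rw [hYd]; exact hr)
    let φ : Z →ₗ[k] k :=
      { toFun := fun v => hf σ J v.1 w'
        map_add' := fun v w => hf_add_left σ J v.1 w.1 w'
        map_smul' := fun c v => hf_smul_left σ J c v.1 w' }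
    have h1 := LinearMap.finrank_range_add_finrank_ker φ
    have h2 : finrank k (LinearMap.range φ) ≤ 1 := by
      have := Submodule.finrank_le (LinearMap.range φ)
      rwa [finrank_self] at this
    have h3 : LinearMap.ker φ ≠ ⊥ := by
      intro h
      rw [h, finrank_bot] at h1
      omega
    obtain ⟨x, hx, hx0⟩ := Submodule.exists_mem_ne_zero_of_ne_bot h3
    refine ⟨x.1, fun h => hx0 (Subtype.ext h), z2.zero x.2, hHm.2 ⟨z2 x.1 x.2 w (z1 wa), hx⟩⟩
  have he := hHm.1 heH
  obtain ⟨e', hee', hpe, heH'⟩ : ∃ e', hf σ J e' e' = 0 ∧ hf σ J e e' ≠ 0 ∧ e' ∈ H := by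
    have hn : e ∉ Submodule.span k {w} ⊔ Submodule.span k {w'} := by
      intro h
      obtain ⟨s, hs, t, ht, hst⟩ := Submodule.mem_sup.1 h
      obtain ⟨c, rfl⟩ := Submodule.mem_span_singleton.1 hs
      obtain ⟨d, rfl⟩ := Submodule.mem_span_singleton.1 ht
      have h1 := he.2
      rw [← hst, hf_add_left, hf_smul_left, hf_smul_left, a'.sing.zero wa', mul_zero,
        add_zero] at h1
      have hc : c = 0 := (mul_eq_zero.1 h1).resolve_right hww
      have h2 := he.1
      rw [← hst, hf_add_left, hf_smul_left, hf_smul_left, a.sing.zero wa, mul_zero,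
        zero_add] at h2
      have hd : d = 0 := (mul_eq_zero.1 h2).resolve_right (hF.symm_ne hww)
      apply he0
      rw [← hst, hc, hd, zero_smul, zero_smul, add_zero]
    obtain ⟨φ, f1, f2⟩ := exists_functional (X := ⊤)
      (H := Submodule.span k {w} ⊔ Submodule.span k {w'}) le_top (Submodule.mem_top (x := e)) hn
    obtain ⟨y, hy⟩ := exists_prod hF ⊤ φ
    have y1 : hf σ J e y = 1 := (hy ⟨e, trivial⟩).trans f1
    have y2 : hf σ J w y = 0 := (hy ⟨w, trivial⟩).trans (f2 _
      ((le_sup_left : Submodule.span k {w} ≤ _) (Submodule.mem_span_singleton_self w)))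
    have y3 : hf σ J w' y = 0 := (hy ⟨w', trivial⟩).trans (f2 _
      ((le_sup_right : Submodule.span k {w'} ≤ _) (Submodule.mem_span_singleton_self w')))
    obtain ⟨α, hα⟩ := hF.exists_corr hee (y := y) (by rw [y1]; exact one_ne_zero)
    have hyH : y ∈ H := hHm.2 ⟨hF.symm_zero y2, hF.symm_zero y3⟩
    refine ⟨y + α • e, hα, ?_, H.add_mem hyH (H.smul_mem _ heH)⟩
    rw [hf_add_right, hf_smul_right, hee, mul_zero, add_zero, y1]
    exact one_ne_zero
  set S : Set (n → k) := {v | v ≠ 0 ∧ hf σ J v v = 0 ∧ v ∈ H} with hS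
  have hspan : H ≤ Submodule.span k S := by
    have main : ∀ v ∈ H, hf σ J e v ≠ 0 → v ∈ Submodule.span k S := by
      intro v hv h
      obtain ⟨α, hα⟩ := hF.exists_corr hee h
      have h1 : e ∈ Submodule.span k S := Submodule.subset_span ⟨he0, hee, heH⟩
      have h2 : v + α • e ∈ Submodule.span k S := by
        by_cases h0 : v + α • e = 0
        · rw [h0]; exact Submodule.zero_mem _
        · exact Submodule.subset_span ⟨h0, hα, H.add_mem hv (H.smul_mem _ heH)⟩
      have h3 := Submodule.sub_mem _ h2 (Submodule.smul_mem _ α h1)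
      rwa [add_sub_cancel_right] at h3
    intro v hv
    by_cases h : hf σ J e v = 0
    · have h1 := main (v + e') (H.add_mem hv heH') (by rw [hf_add_right, h, zero_add]; exact hpe)
      have h2 := main e' heH' hpe
      have h3 := Submodule.sub_mem _ h1 h2
      rwa [add_sub_cancel_right] at h3
    · exact main v hv h
  obtain ⟨b, hbS, hbs, hbl⟩ := exists_linearIndependent k S
  haveI : Fintype b := hbl.setFinite.fintype
  have hcard : Fintype.card n - 2 ≤ Fintype.card b := by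
    have h1 := finrank_span_set_eq_card hbl
    rw [Set.toFinset_card] at h1
    have h2 := Submodule.finrank_mono hspan
    rw [← hbs, h1] at h2
    omega
  obtain ⟨f⟩ : Nonempty (Fin (Fintype.card n - 2) ↪ b) :=
    Function.Embedding.nonempty_of_card_le (by rw [Fintype.card_fin]; exact hcard)
  have hli : LinearIndependent k fun i => ((f i : b) : n → k) := hbl.comp f f.injective
  refine ⟨fun i => pt (f i).1 (hbS (f i).2).1 (hbS (f i).2).2.1, ?_, fun i => ?_, fun i => ?_⟩
  · unfold Ind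
    have h1 : (⨆ i, (pt (σ := σ) (J := J) (f i).1 (hbS (f i).2).1 (hbS (f i).2).2.1).S) =
        Submodule.span k (Set.range fun i => ((f i : b) : n → k)) := by
      rw [Submodule.span_range_eq_iSup]
      rfl
    rw [h1, finrank_span_eq_card hli, Fintype.card_fin]
  · have h1 := (hHm.1 (hbS (f i).2).2.2).1
    intro x hx y hy
    rw [pt_S] at hx
    rw [hw] at hy
    obtain ⟨s, rfl⟩ := Submodule.mem_span_singleton.1 hx
    obtain ⟨t, rfl⟩ := Submodule.mem_span_singleton.1 hy
    rw [hf_smul_left, hf_smul_right, h1, mul_zero, mul_zero]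
  · have h1 := (hHm.1 (hbS (f i).2).2.2).2
    intro x hx y hy
    rw [pt_S] at hx
    rw [hw'] at hy
    obtain ⟨s, rfl⟩ := Submodule.mem_span_singleton.1 hx
    obtain ⟨t, rfl⟩ := Submodule.mem_span_singleton.1 hy
    rw [hf_smul_left, hf_smul_right, h1, mul_zero, mul_zero]

/-- three points orthogonal to `N - 2` independent ones -/
theorem span_two (hF : Frm σ ε J) {z : Fin m → SGr σ J 1} (hz : Ind z)
    (hm : Fintype.card n ≤ m + 2) {x y w : SGr σ J 1} (hxy : x ≠ y) (hx : ∀ i, Col x (z i))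
    (hy : ∀ i, Col y (z i)) (hw : ∀ i, Col w (z i)) : w.S ≤ x.S ⊔ y.S := by
  set T : Submodule k (n → k) := ⨆ i, (z i).S with hT
  have key : ∀ {x : SGr σ J 1}, (∀ i, Col x (z i)) → x.S ≤ perp σ J T := by
    intro x hx
    refine ort_iff_le_perp.1 (Ort.symm hF (ort_iff_le_perp.2 (iSup_le fun i => ?_)))
    exact ort_iff_le_perp.1 (hx i)
  have h1 := H796.perp_le hF T
  have h2 : 2 ≤ finrank k ↥(x.S ⊔ y.S) := H796.succ_le hxy
  have hz' : m ≤ finrank k ↥T := hz
  have h3 : x.S ⊔ y.S = perp σ J T := by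
    refine Submodule.eq_of_le_of_finrank_le (sup_le (key hx) (key hy)) ?_
    omega
  rw [h3]
  exact key hw

end alg

section top

variable {n : Type} [Fintype n] [DecidableEq n] {k : Type} [NontriviallyNormedField k]
  [ProperSpace k] {σ : k →+* k} {ε : k} {J : Matrix n n k} {m : ℕ}

/-- independence is open -/
theorem isOpen_ind : IsOpen {x : Fin m → SGr σ J 1 | Ind x} := by
  rw [← isClosed_compl_iff]
  by_cases hm : m ≤ Fintype.card n
  swap
  · have : {x : Fin m → SGr σ J 1 | Ind x}ᶜ = Set.univ := by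
      ext x
      simp only [Set.mem_compl_iff, Set.mem_setOf_eq, Set.mem_univ, iff_true]
      intro h
      have h1 := Submodule.finrank_le (⨆ i, (x i).S)
      rw [finrank_fintype_fun_eq_card] at h1
      unfold Ind at h
      omega
    rw [this]
    exact isClosed_univ
  rcases m with _ | m
  · have : {x : Fin 0 → SGr σ J 1 | Ind x}ᶜ = ∅ := by
      ext x
      simp only [Set.mem_compl_iff, Set.mem_setOf_eq, Set.mem_empty_iff_false, iff_false, not_not]
      exact Nat.zero_le _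
    rw [this]
    exact isClosed_empty
  have hc : IsClosed {p : SGr σ J 1 × Gr k n m | p.1.S ≤ p.2.1} :=
    (H100.Gr.incG_closed (k := k) (ι := n) (i := 1) (j := m)).preimage
      ((SGr.val_cont.comp continuous_fst).prodMk continuous_snd)
  have h1 : IsClosed {q : (Fin (m + 1) → SGr σ J 1) × Gr k n m | ∀ i, (q.1 i).S ≤ q.2.1} := by
    rw [Set.setOf_forall]
    exact isClosed_iInter fun i => hc.preimage
      (f := fun q : (Fin (m + 1) → SGr σ J 1) × Gr k n m => (q.1 i, q.2)) (by fun_prop)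
  have h2 := isClosedMap_fst_of_compactSpace _ h1
  convert h2 using 1
  ext x
  constructor
  · intro h
    have h3 : finrank k ↥(⨆ i, (x i).S) ≤ m := by
      have : ¬ (m + 1 ≤ finrank k ↥(⨆ i, (x i).S)) := h
      omega
    obtain ⟨Z, z1, -, z2⟩ := exists_between (X := ⨆ i, (x i).S) (Y := ⊤) le_top h3
      (by rw [finrank_top, finrank_fintype_fun_eq_card]; omega)
    exact ⟨(x, ⟨Z, z2⟩), fun i => (le_iSup (fun j => (x j).S) i).trans z1, rfl⟩
  · rintro ⟨⟨x', Z⟩, h, rfl⟩ hI
    have h3 : finrank k ↥(⨆ i, (x' i).S) ≤ finrank k Z.1 := Submodule.finrank_mono (iSup_le h)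
    rw [Z.2] at h3
    have : m + 1 ≤ finrank k ↥(⨆ i, (x' i).S) := hI
    omega

theorem isClosed_col' [Fact (Continuous σ)] :
    IsClosed {p : SGr σ J 1 × SGr σ J 1 | Col p.1 p.2} := col_closed (Fact.out : Continuous σ)

end top

section tot

variable {n : Type} [Fintype n] [DecidableEq n] {k : Type} [Field k]
  {σ : k →+* k} {ε : k} {J : Matrix n n k}
  {n' : Type} [Fintype n'] [DecidableEq n'] {k' : Type} [NontriviallyNormedField k']
  [ProperSpace k'] {σ' : k' →+* k'} {ε' : k'} {J' : Matrix n' n' k'} [Fact (Continuous σ')]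
  {K : Type*} [NormedAddCommGroup K] [InnerProductSpace ℂ K] [CompleteSpace K]

/-- the supports consist of independent tuples -/
def Ok {m : ℕ} (u : Fin m → C(SGr σ' J' 1, ℂ)) : Prop :=
  ∀ x : Fin m → SGr σ' J' 1, (∀ i, x i ∈ tsupport ⇑(u i)) → Ind x

/-- **WORDS WITH INDEPENDENT SUPPORTS ARE TOTAL** -/
theorem tuple_tot (hF : Frm σ ε J) (hF' : Frm σ' ε' J')
    {E : SGr σ J 1 → (C(SGr σ' J' 1, ℂ) →⋆ₐ[ℂ] (K →L[ℂ] K))} {a a' : SGr σ J 1}
    (haa : ¬ Col a a')
    (cE : ∀ p q : SGr σ J 1, Col p q → ∀ f g, Commute (E p f) (E q g))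
    (iE : ∀ p q : SGr σ J 1, Col p q → ∀ f g, Nin (fun x y : SGr σ' J' 1 => Col x y) f g →
      E p f * E q g = 0)
    (np : ∀ p q : SGr σ J 1, ¬ Col p q → ∀ ζ, (∀ f g, Nin (fun x y : SGr σ' J' 1 => Col x y) f g →
      E p f (E q g ζ) = 0) → ζ = 0)
    (zo : ∀ (m : ℕ) (p : Fin m → SGr σ J 1), (∀ i, Col (p i) a) → (∀ i, Col (p i) a') →
      (∀ u : Fin m → C(SGr σ' J' 1, ℂ), Ok u → wd (fun i => E (p i)) u = 0) ∨
      ∀ ζ, (∀ u : Fin m → C(SGr σ' J' 1, ℂ), Ok u → wd (fun i => E (p i)) u ζ = 0) → ζ = 0) :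
    ∀ (m : ℕ) (p : Fin m → SGr σ J 1), Ind p → (∀ i, Col (p i) a) → (∀ i, Col (p i) a') →
      ∀ ζ, (∀ u : Fin m → C(SGr σ' J' 1, ℂ), Ok u → wd (fun i => E (p i)) u ζ = 0) → ζ = 0 := by
  intro m
  induction m with
  | zero =>
    intro p _ _ _ ζ h
    have h1 := h (fun i => i.elim0) (fun x _ => Nat.zero_le _)
    rw [wd_zero] at h1
    exact h1
  | succ m ih =>
    intro p hp ha ha' ζ hζ
    rcases zo (m + 1) p ha ha' with h | h
    swap
    · exact h ζ hζ
    obtain ⟨q, hq, hq0⟩ := exists_q hF haa hp ha ha'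
    refine ih (fun i => p i.succ) (ind_tail hp) (fun i => ha i.succ) (fun i => ha' i.succ) ζ
      fun u hu => ?_
    have h1 := step_tot (c := fun i => E (p i)) (q := E q)
      (Pr := fun x y : SGr σ' J' 1 => Col x y) (Ind := Ind) (Ind' := Ind)
      isClosed_col' isOpen_ind (fun x y h1 h2 h3 => ind_geo hF' h1 h2 h3)
      (fun i f g => cE q (p i.succ) (hq i) f g) (fun i f g hn => iE q (p i.succ) (hq i) f g hn)
      (fun ζ h => np (p 0) q hq0 ζ h) h u hu
    rw [h1]
    rfl

end tot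

section zo

variable {G Γ K : Type} [Group G] [TopologicalSpace G] [Group Γ] [NormedAddCommGroup K]
  [InnerProductSpace ℂ K] [CompleteSpace K] {π : G →* (K →L[ℂ] K)} {lam : Γ →* (K →L[ℂ] K)}
  {W : Set (K →L[ℂ] K)} {Y : Type*} [TopologicalSpace Y] [CompactSpace Y] [T2Space Y] {m : ℕ}

theorem cov_wd (t : Γ → C(Y, ℂ) → C(Y, ℂ)) : ∀ {m : ℕ}
    {c : Fin m → (C(Y, ℂ) →⋆ₐ[ℂ] (K →L[ℂ] K))}
    (_ : ∀ i γ f, lam γ * c i f * lam γ⁻¹ = c i (t γ f)) (γ : Γ) (u : Fin m → C(Y, ℂ)),
    lam γ * wd c u * lam γ⁻¹ = wd c fun i => t γ (u i)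
  | 0, c, _, γ, u => by
    rw [wd_zero, wd_zero, mul_one, ← map_mul, mul_inv_cancel, map_one]
  | m + 1, c, cov, γ, u => by
    have l1 : lam γ⁻¹ * lam γ = 1 := by rw [← map_mul, inv_mul_cancel, map_one]
    rw [wd_succ, wd_succ, ← cov 0 γ (u 0), ← cov_wd t (fun i => cov i.succ) γ]
    simp only [mul_assoc]
    rw [← mul_assoc (lam γ⁻¹) (lam γ), l1, one_mul]

/-- **zero-one law for words** -/
theorem zo_words (hp : H631.P0.Bas π lam W) {S : Set G} (hS : Moore S)
    (hinv : ∀ g ∈ S, g⁻¹ ∈ S) {c : Fin m → (C(Y, ℂ) →⋆ₐ[ℂ] (K →L[ℂ] K))}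
    (cm : ∀ i f, Cm W (c i f)) (t : Γ → C(Y, ℂ) → C(Y, ℂ))
    (cov : ∀ i γ f, lam γ * c i f * lam γ⁻¹ = c i (t γ f)) {O : (Fin m → C(Y, ℂ)) → Prop}
    (hO : ∀ γ u, O u → O fun i => t γ (u i))
    (hπ : ∀ g ∈ S, ∀ i f, c i f * π g = π g * c i f) :
    (∀ u, O u → wd c u = 0) ∨ ∀ ζ, (∀ u, O u → wd c u ζ = 0) → ζ = 0 := by
  let M : Submodule ℂ K :=
    { carrier := {ζ | ∀ u, O u → wd c u ζ = 0}
      add_mem' := fun {x y} hx hy u hu => by rw [map_add, hx u hu, hy u hu, add_zero]
      zero_mem' := fun u _ => map_zero _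
      smul_mem' := fun s x hx u hu => by rw [map_smul, hx u hu, smul_zero] }
  have hM : IsClosed (M : Set K) := by
    have e : (M : Set K) = ⋂ (u : Fin m → C(Y, ℂ)) (_ : O u), {ζ | wd c u ζ = 0} := by
      ext ζ
      simp only [Set.mem_iInter, Set.mem_setOf_eq]
      rfl
    rw [e]
    exact isClosed_iInter fun u => isClosed_iInter fun _ =>
      isClosed_eq (wd c u).continuous continuous_const
  have swap : ∀ {A B : K →L[ℂ] K}, A * B = B * A → ∀ ζ, A (B ζ) = B (A ζ) := fun h ζ =>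
    congrArg (fun S : K →L[ℂ] K => S ζ) h
  have h01 : M = ⊥ ∨ M = ⊤ := by
    refine hp.zo hS hM ?_ ?_ ?_
    · intro w hw ζ hζ u hu
      have h1 : w * wd c u = wd c u * w :=
        (comm_wd (T := w) fun i => (cm i (u i) w hw).symm).eq
      rw [swap h1.symm, hζ u hu, map_zero]
    · intro γ ζ hζ u hu
      have h1 := cov_wd t cov γ⁻¹ u
      rw [inv_inv] at h1
      have l1 : lam γ * lam γ⁻¹ = 1 := by rw [← map_mul, mul_inv_cancel, map_one]
      have h2 : wd c u * lam γ = lam γ * wd c fun i => t γ⁻¹ (u i) := by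
        rw [← h1, mul_assoc (lam γ⁻¹), ← mul_assoc (lam γ), l1, one_mul]
      have h3 : wd c u (lam γ ζ) = lam γ ((wd c fun i => t γ⁻¹ (u i)) ζ) :=
        congrArg (fun S : K →L[ℂ] K => S ζ) h2
      rw [h3, hζ _ (hO _ _ hu), map_zero]
    · intro g hg ζ hζ
      have key : ∀ g ∈ S, ∀ u, π g * wd c u = wd c u * π g := fun g hg u =>
        (comm_wd (T := π g) fun i => (hπ g hg i (u i)).symm).eq
      exact ⟨fun u hu => by rw [← swap (key g hg u), hζ u hu, map_zero],
        fun u hu => by rw [← swap (key _ (hinv g hg) u), hζ u hu, map_zero]⟩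
  rcases h01 with h | h
  · right
    intro ζ hζ
    have : ζ ∈ M := hζ
    rw [h] at this
    exact (Submodule.mem_bot ℂ).1 this
  · left
    intro u hu
    ext ζ
    have : ζ ∈ M := by rw [h]; trivial
    exact this u hu

end zo

end Vale.Agent.P092.H398.Wd
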